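import Vale.Agent.P372.MathlibUsed
import Mathlib.LinearAlgebra.Matrix.IsDiag

open Matrix Kronecker Filter Topology
open scoped ComplexOrder MatrixOrder

namespace Vale.Agent.P372W

/-- Operators on the Hilbert space with orthonormal basis indexed by the finite type `A`. -/
abbrev Op (A : Type) : Type := Matrix A A ℂ

variable {A A' B B' C E F K M : Type}

/-- States (density operators). -/
def IsState [Fintype A] (ρ : Op A) : Prop := ρ.PosSemidef ∧ ρ.trace = 1

/-- Separable: a finite convex combination of product states. -/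
def Separable [Fintype A] [Fintype B] (ρ : Op (A × B)) : Prop :=
  ∃ (n : ℕ) (p : Fin n → ℝ) (α : Fin n → Op A) (β : Fin n → Op B), (∀ i, 0 ≤ p i) ∧
    ∑ i, p i = 1 ∧ (∀ i, IsState (α i) ∧ IsState (β i)) ∧ ρ = ∑ i, (p i : ℂ) • α i ⊗ₖ β i

/-- The trace norm `tr √(X* X)`. -/
noncomputable def trNorm [Fintype A] [DecidableEq A] (X : Op A) : ℝ :=
  (CFC.sqrt (Xᴴ * X)).trace.re

/-- The operator `|ψ⟩⟨ψ|`. -/
def proj (ψ : A → ℂ) : Op A := vecMulVec ψ (star ψ)

/-- The partial trace over the second factor. -/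
def trE [Fintype E] (X : Op (C × E)) : Op C := fun c c' => ∑ e, X (c, e) (c', e)

/-- The tensor power `ω ^ {⊗ n}` on `A^n ⊗ B^n ⊗ E^n`. -/
def tens (n : ℕ) (ω : Op ((A × B) × E)) : Op (((Fin n → A) × (Fin n → B)) × (Fin n → E)) :=
  fun p q => ∏ i, ω ((p.1.1 i, p.1.2 i), p.2 i) ((q.1.1 i, q.1.2 i), q.2 i)

/-- `Φ` is completely positive: every `Φ ⊗ id_k` maps positive operators to positive operators. -/
def IsCP (Φ : Op A →ₗ[ℂ] Op A') : Prop := ∀ (k : ℕ) (X : Op (A × Fin k)), X.PosSemidef →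
  PosSemidef (fun p q => Φ (fun a a' => X (a, p.2) (a', q.2)) p.1 q.1 : Op (A' × Fin k))

/-- A quantum instrument: completely positive maps whose sum preserves the trace. -/
def IsInstr [Fintype A] [Fintype A'] [Fintype M] (Φ : M → Op A →ₗ[ℂ] Op A') : Prop :=
  (∀ m, IsCP (Φ m)) ∧ ∀ X, ∑ m, (Φ m X).trace = X.trace

/-- A quantum channel whose output is a classical register. -/
def IsReadout [Fintype A] [Fintype K] (Φ : Op A →ₗ[ℂ] Op K) : Prop :=
  IsCP Φ ∧ (∀ X, (Φ X).trace = X.trace) ∧ ∀ X, (Φ X).IsDiag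

/-- `Φ ⊗ id ⊗ id` -/
def onA (Φ : Op A →ₗ[ℂ] Op A') (X : Op ((A × B) × E)) : Op ((A' × B) × E) :=
  fun p q => Φ (fun a a' => X ((a, p.1.2), p.2) ((a', q.1.2), q.2)) p.1.1 q.1.1

/-- `id ⊗ Φ ⊗ id` -/
def onB (Φ : Op B →ₗ[ℂ] Op B') (X : Op ((A × B) × E)) : Op ((A × B') × E) :=
  fun p q => Φ (fun b b' => X ((p.1.1, b), p.2) ((q.1.1, b'), q.2)) p.1.2 q.1.2

/-- `∑ m, τ m ⊗ |m⟩⟨m|`: the message `m` is put in front of the transcript. -/
def record [DecidableEq M] {T : M → Type} (τ : ∀ m, Op (C × (E × T m))) :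
    Op (C × (E × Σ m, T m)) :=
  (blockDiagonal' τ).submatrix (fun p => ⟨p.2.2.1, p.1, p.2.1, p.2.2.2⟩)
    fun p => ⟨p.2.2.1, p.1, p.2.1, p.2.2.2⟩

/-- `Run K E A B T Λ`: some protocol of Alice (system `A`) and Bob (system `B`), with keys in `K`
and complete public transcripts in `T`, turns each initial state `X` of `A B E` into the final
state `Λ X` of `K_A K_B E'`, where Eve's final system `E'` is `E` and a copy of the transcript.
* `stop`: both parties turn their systems into classical registers with values in `K`;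
* `alice`: Alice applies an instrument from `A` to any system `A'` (this includes ancillas and
  private randomness), announces the outcome `m`, and a protocol depending on `m` follows;
* `bob`: the same for Bob. -/
inductive Run (K E : Type) [Fintype K] :
    (A B T : Type) → (Op ((A × B) × E) → Op ((K × K) × (E × T))) → Prop
  | stop {A B : Type} [Fintype A] [Fintype B] (Φ : Op A →ₗ[ℂ] Op K) (Θ : Op B →ₗ[ℂ] Op K)
      (hΦ : IsReadout Φ) (hΘ : IsReadout Θ) :
      Run K E A B Unit fun X p q => onA Φ (onB Θ X) (p.1, p.2.1) (q.1, q.2.1)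
  | alice {A B : Type} [Fintype A] (A' M : Type) [Fintype A'] [Fintype M] [DecidableEq M]
      (Φ : M → Op A →ₗ[ℂ] Op A') (hΦ : IsInstr Φ) (T : M → Type)
      (Λ : ∀ m, Op ((A' × B) × E) → Op ((K × K) × (E × T m)))
      (h : ∀ m, Run K E A' B (T m) (Λ m)) :
      Run K E A B (Σ m, T m) fun X => record fun m => Λ m (onA (Φ m) X)
  | bob {A B : Type} [Fintype B] (B' M : Type) [Fintype B'] [Fintype M] [DecidableEq M]
      (Φ : M → Op B →ₗ[ℂ] Op B') (hΦ : IsInstr Φ) (T : M → Type)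
      (Λ : ∀ m, Op ((A × B') × E) → Op ((K × K) × (E × T m)))
      (h : ∀ m, Run K E A B' (T m) (Λ m)) :
      Run K E A B (Σ m, T m) fun X => record fun m => Λ m (onB (Φ m) X)

/-- The final state `τ` has error `ε`: for some state `σ` of Eve's final system,
`‖τ - 2^(-ℓ) ∑ z, |z, z⟩⟨z, z| ⊗ σ‖₁ ≤ ε`. -/
def HasError [Fintype F] [DecidableEq F] {ℓ : ℕ}
    (τ : Op (((Fin ℓ → Bool) × (Fin ℓ → Bool)) × F)) (ε : ℝ) : Prop :=
  ∃ σ : Op F, IsState σ ∧
    trNorm (τ - ((2 : ℂ) ^ ℓ)⁻¹ • ∑ z, proj (Pi.single (z, z) 1) ⊗ₖ σ) ≤ ε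

/-- The distillable secret key, Eve holding the system `E` of the vector `ψ` of `A B E`: the
supremum of `liminf ℓ n / n` over sequences of protocols on `n` copies with errors tending to
zero. -/
noncomputable def KD [Fintype E] [DecidableEq E] (ψ : (A × B) × E → ℂ) : EReal :=
  sSup {r : EReal | ∃ (ℓ : ℕ → ℕ) (ε : ℕ → ℝ),
    (∀ n, ∃ (T : Type) (_ : Fintype T) (_ : DecidableEq T) (Λ : _),
      Run (Fin (ℓ n) → Bool) (Fin n → E) (Fin n → A) (Fin n → B) T Λ ∧
        HasError (Λ (tens n (proj ψ))) (ε n)) ∧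
    Tendsto ε atTop (𝓝 0) ∧ r = liminf (fun n => (((ℓ n : ℝ) / (n : ℝ) : ℝ) : EReal)) atTop}

/-- The vector `(|00⟩ + |11⟩) / √2`, with a trivial system of Eve. -/
noncomputable def bell : (Bool × Bool) × Unit → ℂ :=
  fun p => if p.1.1 = p.1.2 then ((√2)⁻¹ : ℝ) else 0

end Vale.Agent.P372W
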